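import Vale.Agent.P087.Moment.Poly
import Vale.Agent.P087.ChiLower.Transfer
import Vale.Agent.P087.Basic

/-!
# The recursion of the model over `Q` and the limit of the products of traces (P087, Block 6)
-/

open Filter Topology

namespace Vale.Agent.P087.Moment

variable {Q : Type} [Group Q] {n : ℕ}

/-- the letters of the matrix model among the letters of the model -/
def emb : Lt Q n → Q ⊕ (Fin n ⊕ Fin n) := Sum.map id Sum.inl

/-- the moments of the model over `Q` -/
noncomputable def tM (w : List (Lt Q n)) : ℂ :=
  tau (vac Q (Fin n ⊕ Fin n)) (wordOp genOp (w.map emb))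

lemma tM_nil : tM ([] : List (Lt Q n)) = 1 := by
  simp [tM, tau, norm_vac]

lemma tM_concat_inl (hrec : RecursionPin) [DecidableEq Q] (u : List (Lt Q n)) (g : Q) :
    tM (u ++ [Sum.inl g]) = (if g = 1 then (1 / 4 : ℂ) else 0) * tM u
      + splitG u fun p x s => caseC x fun h => tM (p ++ [Sum.inl (h * g)]) * tM s := by
  have h := (hrec Q (Fin n ⊕ Fin n) (u.map emb)).1 g
  rw [ChiLower.splitSum_map] at h
  rw [show tM (u ++ [Sum.inl g]) = tau (vac Q (Fin n ⊕ Fin n))
      (wordOp genOp (u.map emb ++ [Sum.inl g])) by simp [tM, emb], h, splitG_eq_splitSum]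
  refine congrArg₂ (· + ·) rfl (ChiLower.splitSum_congr _ _ _ fun p x s _ => ?_)
  cases x <;> simp [tM, emb, caseC]

lemma tM_concat_inr (hrec : RecursionPin) [DecidableEq Q] (u : List (Lt Q n)) (j : Fin n) :
    tM (u ++ [Sum.inr j])
      = splitG u fun p x s => if x = Sum.inr j then tM p * tM s else 0 := by
  have h := (hrec Q (Fin n ⊕ Fin n) (u.map emb)).2 (Sum.inl j)
  rw [ChiLower.splitSum_map] at h
  rw [show tM (u ++ [Sum.inr j]) = tau (vac Q (Fin n ⊕ Fin n))
      (wordOp genOp (u.map emb ++ [Sum.inr (Sum.inl j)])) by simp [tM, emb], h, splitG_eq_splitSum]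
  refine ChiLower.splitSum_congr _ _ _ fun p x s _ => ?_
  cases x <;> simp [tM, emb]

variable [Fintype Q]

lemma tendsto_ki : Tendsto (fun l => ki Q l) atTop (𝓝 0) := by
  refine (tendsto_inv_atTop_nhds_zero_nat (𝕜 := ℂ)).comp ?_
  unfold msize
  exact tendsto_id.const_mul_atTop' (Nat.mul_pos (by norm_num) Fintype.card_pos)

lemma mMom_nil (l : ℕ) : mMom (Q := Q) (n := n) l [] = 1 := by
  rw [mMom, show pP (Q := Q) (n := n) (l := l) [] = MvPolynomial.C 1 by simp [pP], gE_C]

lemma mMom_nil_cons {l : ℕ} (hl : 0 < l) (W : List (List (Lt Q n))) :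
    mMom l ([] :: W) = mMom l W := by
  have hk : (msize Q l : ℂ) ≠ 0 := by
    have := Nat.mul_pos (Nat.mul_pos (by norm_num : 0 < 4) (Fintype.card_pos (α := Q))) hl
    exact Nat.cast_ne_zero.2 this.ne'
  have h1 : pT (Q := Q) (n := n) (l := l) [] = 1 := by
    rw [pT, show polW (Q := Q) (n := n) (l := l) [] = 1 from rfl, Matrix.trace_one,
      Fintype.card_fin, ← map_natCast (MvPolynomial.C (σ := Coord Q n l) (R := ℂ)),
      ← MvPolynomial.C_mul, ki, inv_mul_cancel₀ hk, MvPolynomial.C_1]
  rw [mMom, pP_cons, h1, one_mul, mMom]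

lemma tendsto_splitG {P : Type*} (w : List P) {f : ℕ → List P → P → List P → ℂ}
    {a : List P → P → List P → ℂ}
    (h : ∀ p x s, w = p ++ x :: s → Tendsto (fun l => f l p x s) atTop (𝓝 (a p x s))) :
    Tendsto (fun l => splitG w (f l)) atTop (𝓝 (splitG w a)) := by
  refine tendsto_finsetSum _ fun i _ => h _ _ _ ?_
  conv_lhs => rw [← List.take_append_drop i w, List.drop_eq_getElem_cons i.2]
  rfl

/-- the number of letters -/
def tot (W : List (List (Lt Q n))) : ℕ := (W.map List.length).sum

lemma step_inl (hrec : RecursionPin) [DecidableEq Q] (u : List (Lt Q n)) (g : Q)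
    (W : List (List (Lt Q n)))
    (ih' : ∀ V : List (List (Lt Q n)), tot V < tot ((u ++ [Sum.inl g]) :: W) →
      Tendsto (fun l => mMom l V) atTop (𝓝 (V.map tM).prod)) :
    Tendsto (fun l => mMom l ((u ++ [Sum.inl g]) :: W)) atTop
      (𝓝 (tM (u ++ [Sum.inl g]) * (W.map tM).prod)) := by
  have hki : Tendsto (fun l => ki Q l * ki Q l) atTop (𝓝 0) := by
    simpa using (tendsto_ki (Q := Q)).mul tendsto_ki
  simp only [tot, List.map_cons, List.sum_cons, List.length_append, List.length_singleton] at ih'
  rw [tM_concat_inl hrec, add_mul, mul_assoc, splitG_mul]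
  have hA : Tendsto (fun l => mMom l (u :: W)) atTop (𝓝 (tM u * (W.map tM).prod)) := by
    simpa using ih' (u :: W) (by simp)
  have hB : Tendsto (fun l => splitG u fun p x s => caseC x fun h =>
        mMom l ((p ++ [Sum.inl (h * g)]) :: s :: W)) atTop
      (𝓝 (splitG u fun p x s =>
        (caseC x fun h => tM (p ++ [Sum.inl (h * g)]) * tM s) * (W.map tM).prod)) := by
    refine tendsto_splitG u fun p x s hu => ?_
    have hlen := congrArg List.length hu
    simp only [List.length_append, List.length_cons] at hlen
    cases x with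
    | inl h =>
      simpa [caseC, mul_assoc] using
        ih' ((p ++ [Sum.inl (h * g)]) :: s :: W) (by simp; omega)
    | inr j => simp [caseC]
  have hC : Tendsto (fun l => splitG W fun P v S => splitG v fun p x s => caseC x fun h =>
        mMom l ((u ++ s ++ p ++ [Sum.inl (h * g)]) :: (P ++ S))) atTop
      (𝓝 (splitG W fun P v S => splitG v fun p x s => caseC x fun h =>
        (((u ++ s ++ p ++ [Sum.inl (h * g)]) :: (P ++ S)).map tM).prod)) := by
    refine tendsto_splitG W fun P v S hW => tendsto_splitG v fun p x s hv => ?_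
    subst hW hv
    cases x with
    | inl h =>
      simp only [caseC, Sum.elim_inl]
      exact ih' ((u ++ s ++ p ++ [Sum.inl (h * g)]) :: (P ++ S)) (by
        simp only [List.map_cons, List.map_append, List.sum_cons, List.sum_append,
          List.length_append, List.length_cons, List.length_nil]; omega)
    | inr j => simp [caseC]
  have h := ((hA.const_mul (if g = 1 then (1 / 4 : ℂ) else 0)).add hB).add (hki.mul hC)
  rw [zero_mul, add_zero] at h
  refine h.congr' ?_
  filter_upwards [eventually_gt_atTop 0] with l hl using (mMom_concat_inl hl u g W).symm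

lemma step_inr (hrec : RecursionPin) [DecidableEq Q] (u : List (Lt Q n)) (j : Fin n)
    (W : List (List (Lt Q n)))
    (ih' : ∀ V : List (List (Lt Q n)), tot V < tot ((u ++ [Sum.inr j]) :: W) →
      Tendsto (fun l => mMom l V) atTop (𝓝 (V.map tM).prod)) :
    Tendsto (fun l => mMom l ((u ++ [Sum.inr j]) :: W)) atTop
      (𝓝 (tM (u ++ [Sum.inr j]) * (W.map tM).prod)) := by
  have hki : Tendsto (fun l => ki Q l * ki Q l) atTop (𝓝 0) := by
    simpa using (tendsto_ki (Q := Q)).mul tendsto_ki
  simp only [tot, List.map_cons, List.sum_cons, List.length_append, List.length_singleton] at ih'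
  rw [tM_concat_inr hrec, splitG_mul]
  have hB : Tendsto (fun l => splitG u fun p x s => if x = Sum.inr j then
        mMom l (p :: s :: W) else 0) atTop
      (𝓝 (splitG u fun p x s =>
        (if x = Sum.inr j then tM p * tM s else 0) * (W.map tM).prod)) := by
    refine tendsto_splitG u fun p x s hu => ?_
    have hlen := congrArg List.length hu
    simp only [List.length_append, List.length_cons] at hlen
    by_cases hx : x = Sum.inr j
    · simpa [hx, mul_assoc] using ih' (p :: s :: W) (by simp; omega)
    · simp [hx]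
  have hC : Tendsto (fun l => splitG W fun P v S => splitG v fun p x s =>
        if x = Sum.inr j then mMom l ((u ++ s ++ p) :: (P ++ S)) else 0) atTop
      (𝓝 (splitG W fun P v S => splitG v fun p x s =>
        if x = Sum.inr j then (((u ++ s ++ p) :: (P ++ S)).map tM).prod else 0)) := by
    refine tendsto_splitG W fun P v S hW => tendsto_splitG v fun p x s hv => ?_
    subst hW hv
    by_cases hx : x = Sum.inr j
    · simp only [hx, if_true]
      exact ih' ((u ++ s ++ p) :: (P ++ S)) (by
        simp only [List.map_cons, List.map_append, List.sum_cons, List.sum_append,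
          List.length_append, List.length_cons]; omega)
    · simp [hx]
  have h := hB.add (hki.mul hC)
  rw [zero_mul, add_zero] at h
  exact h.congr fun l => (mMom_concat_inr u j W).symm

theorem mMom_tendsto (hrec : RecursionPin) (W : List (List (Lt Q n))) :
    Tendsto (fun l => mMom l W) atTop (𝓝 (W.map tM).prod) := by
  classical
  induction hm : tot W using Nat.strong_induction_on generalizing W with
  | _ m ih =>
    have ih' : ∀ V, tot V < m → Tendsto (fun l => mMom l V) atTop (𝓝 (V.map tM).prod) :=
      fun V hV => ih _ hV V rfl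
    clear ih
    induction W with
    | nil => simp [mMom_nil]
    | cons w W ihW =>
      rcases List.eq_nil_or_concat w with rfl | ⟨u, a, rfl⟩
      · have h := ihW (by simpa [tot] using hm)
        simp only [List.map_cons, List.prod_cons, tM_nil, one_mul]
        refine h.congr' ?_
        filter_upwards [eventually_gt_atTop 0] with l hl using (mMom_nil_cons hl W).symm
      rw [List.concat_eq_append] at hm ⊢
      rw [List.map_cons, List.prod_cons]
      cases a with
      | inl g => exact step_inl hrec u g W fun V hV => ih' V (hm ▸ hV)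
      | inr j => exact step_inr hrec u j W fun V hV => ih' V (hm ▸ hV)

omit [Fintype Q] in
lemma star_genOp_emb (a : Lt Q n) :
    star (genOp (emb a) : Fock Q (Fin n ⊕ Fin n) →L[ℂ] Fock Q (Fin n ⊕ Fin n))
      = genOp (emb (Sum.map (·⁻¹) id a)) := by
  cases a <;> simp [emb, genOp, star_genA, star_genS]

omit [Fintype Q] in
lemma tM_rv (w : List (Lt Q n)) :
    tM ((w.map (Sum.map (·⁻¹) id)).reverse) = starRingEnd ℂ (tM w) := by
  have e : ∀ v : List (Lt Q n),
      star (wordOp genOp (v.map emb) : Fock Q (Fin n ⊕ Fin n) →L[ℂ] Fock Q (Fin n ⊕ Fin n))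
        = wordOp genOp (((v.map (Sum.map (·⁻¹) id)).reverse).map emb) := by
    intro v
    induction v with
    | nil => simp
    | cons a v ih =>
      simp only [List.map_cons, wordOp_cons, star_mul, ih, star_genOp_emb, List.reverse_cons,
        List.map_append, wordOp_append, List.map_nil, wordOp_nil, mul_one]
  rw [tM, ← e, tM, tau, tau, ContinuousLinearMap.star_eq_adjoint,
    ContinuousLinearMap.adjoint_inner_right, ← inner_conj_symm]

end Vale.Agent.P087.Moment
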