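import Vale.Agent.P087.Moment.Poly

/-!
# The polynomial matrices at a point, and the adjoint of a word (P087, Block 6)
-/

open Matrix MvPolynomial

namespace Vale.Agent.P087.Moment

variable {Q : Type*} [Fintype Q] [Group Q] {n l : ℕ}

/-- the matrix of a letter at a point -/
noncomputable def matL (x : Coord Q n l → ℝ) :
    Lt Q n → Matrix (Fin (msize Q l)) (Fin (msize Q l)) ℂ :=
  Sum.elim
    (fun h => Matrix.conjTranspose (matC x)
      * (markMat h : Matrix (Q × Fin l) (Q × Fin l) ℂ) * matC x)
    (matS x)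

omit [Group Q] in
lemma map_polC (x : Coord Q n l → ℝ) : (polC (n := n)).map (ev x) = matC x := by
  ext1 a b
  simp [polC, lin₂, ev, matC, hs]
  ring

omit [Group Q] in
lemma map_polC' (x : Coord Q n l → ℝ) :
    (polC' (n := n)).map (ev x) = Matrix.conjTranspose (matC x) := by
  ext1 b a
  simp [polC', lin₂, ev, matC, hs]
  ring

omit [Group Q] in
lemma map_polS (x : Coord Q n l → ℝ) (j : Fin n) :
    (polS (Q := Q) (l := l) j).map (ev x) = matS x j := by
  ext1 a b
  rcases lt_trichotomy a b with h | h | h
  · simp [polS, lin₂, ev, matS, hermOf, sU, sV, hs, h, h.ne]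
    ring
  · subst h
    simp [polS, lin₂, ev, matS, hermOf, sU, sV]
  · simp [polS, lin₂, ev, matS, hermOf, sU, sV, hs, h.not_gt, h.ne']
    ring

lemma map_polL (x : Coord Q n l → ℝ) (a : Lt Q n) : (polL a).map (ev x) = matL x a := by
  cases a with
  | inl h =>
    simp only [polL, polA, polCP, Sum.elim_inl, Matrix.map_mul, map_polC, map_polC', matL]
    congr 2
    ext1 p q
    simp [polP, ev]
  | inr j => simp [polL, matL, map_polS]

lemma eval_polW (x : Coord Q n l → ℝ) (w : List (Lt Q n)) :
    (polW w).map (ev x) = wordMat (matL x) w := by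
  induction w with
  | nil => simp [polW, wordMat]
  | cons a w ih =>
    rw [show polW (l := l) (a :: w) = polL a * polW w by simp [polW], Matrix.map_mul, ih,
      map_polL]
    simp [wordMat]

lemma ev_pT (x : Coord Q n l → ℝ) (w : List (Lt Q n)) :
    ev x (pT w) = ntr (wordMat (matL x) w) := by
  rw [pT, map_mul, ← eval_polW, ntr]
  congr 1
  · simp [ev, ki]
  · simp [Matrix.trace, map_sum]

omit [Fintype Q] in
lemma conjTranspose_markMat (g : Q) :
    Matrix.conjTranspose (markMat g : Matrix (Q × Fin l) (Q × Fin l) ℂ) = markMat g⁻¹ := by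
  classical
  ext a b
  simp only [Matrix.conjTranspose_apply, markMat, Matrix.of_apply]
  by_cases h : b.1 = g * a.1 ∧ b.2 = a.2
  · rw [if_pos h, if_pos ⟨by rw [h.1, inv_mul_cancel_left], h.2.symm⟩, star_one]
  · rw [if_neg h, if_neg, star_zero]
    rintro ⟨h1, h2⟩
    exact h ⟨by rw [h1, mul_inv_cancel_left], h2.symm⟩

/-- the adjoint of a letter -/
def flipL : Lt Q n → Lt Q n := Sum.map (·⁻¹) id

/-- the adjoint of a word -/
def rv (w : List (Lt Q n)) : List (Lt Q n) := (w.map flipL).reverse

omit [Group Q] in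
lemma conjTranspose_matS (x : Coord Q n l → ℝ) (j : Fin n) :
    Matrix.conjTranspose (matS x j) = matS x j := by
  ext a b
  rcases lt_trichotomy a b with h | h | h
  · simp [matS, hermOf, h, h.ne, h.ne', h.not_gt]
  · subst h
    simp [matS, hermOf]
  · simp [matS, hermOf, h, h.ne, h.ne', h.not_gt]
    try (left; ring)

lemma conjTranspose_matL (x : Coord Q n l → ℝ) (a : Lt Q n) :
    Matrix.conjTranspose (matL x a) = matL x (flipL a) := by
  cases a with
  | inl h =>
    simp [matL, flipL, Matrix.conjTranspose_mul, conjTranspose_markMat, Matrix.mul_assoc]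
  | inr j => simp [matL, flipL, conjTranspose_matS]

lemma conjTranspose_wordMat (x : Coord Q n l → ℝ) (w : List (Lt Q n)) :
    Matrix.conjTranspose (wordMat (matL x) w) = wordMat (matL x) (rv w) := by
  induction w with
  | nil => simp [wordMat, rv]
  | cons a w ih =>
    rw [show wordMat (matL x) (a :: w) = matL x a * wordMat (matL x) w by simp [wordMat],
      Matrix.conjTranspose_mul, ih, conjTranspose_matL]
    simp [wordMat, rv]

lemma ev_pT_rv (x : Coord Q n l → ℝ) (w : List (Lt Q n)) :
    ev x (pT (rv w)) = starRingEnd ℂ (ev x (pT w)) := by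
  rw [ev_pT, ev_pT, ← conjTranspose_wordMat, ntr, ntr, Matrix.trace_conjTranspose, map_mul,
    map_inv₀, map_natCast]
  rfl

end Vale.Agent.P087.Moment
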