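import Vale.Agent.P150.Gauss

/-!
# Gaussian integration by parts for polynomials in finitely many coordinates (P087, Block 6)
-/

open MeasureTheory ProbabilityTheory MvPolynomial

namespace Vale.Agent.P087.Moment

variable {ι : Type*}

/-- evaluation at a real point -/
noncomputable def ev (x : ι → ℝ) : MvPolynomial ι ℂ →+* ℂ := eval fun i => (x i : ℂ)

/-- moments of the standard normal law -/
noncomputable def nMom (m : ℕ) : ℂ := ∫ t, (t : ℂ) ^ m ∂gaussianReal 0 1

lemma nMom_eq (m : ℕ) : nMom m = ((∫ t, t ^ m ∂gaussianReal 0 1 : ℝ) : ℂ) := by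
  rw [nMom, ← integral_complex_ofReal]
  simp

lemma integrable_pow_real (m : ℕ) : Integrable (fun t : ℝ => t ^ m) (gaussianReal 0 1) := by
  have h := (memLp_id_gaussianReal' (μ := 0) (v := 1) m (ENNReal.natCast_ne_top m)).integrable_norm_pow'
  exact Integrable.mono' h (by fun_prop) (Filter.Eventually.of_forall fun x => by simp)

lemma integrable_pow_complex (m : ℕ) :
    Integrable (fun t : ℝ => (t : ℂ) ^ m) (gaussianReal 0 1) := by
  simpa using (integrable_pow_real m).ofReal (𝕜 := ℂ)

lemma nMom_succ (m : ℕ) : nMom (m + 1) = (m : ℂ) * nMom (m - 1) := by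
  cases m with
  | zero => simp [nMom_eq]
  | succ m =>
    have h := Vale.Agent.P150.stein (φ := fun x : ℝ => x ^ (m + 1))
      (φ' := fun x : ℝ => ((m : ℝ) + 1) * x ^ m)
      (fun x => by simpa using hasDerivAt_pow (m + 1) x) (integrable_pow_real _)
      ((integrable_pow_real _).const_mul _) ((integrable_pow_real (m + 2)).congr
        (Filter.Eventually.of_forall fun x => by ring))
    rw [integral_const_mul] at h
    simp only [← pow_succ'] at h
    rw [nMom_eq, nMom_eq, Nat.add_sub_cancel]
    push_cast
    exact_mod_cast h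

variable [Fintype ι]

lemma ev_monomial (x : ι → ℝ) (s : ι →₀ ℕ) (a : ℂ) :
    ev x (monomial s a) = a * ∏ i, (x i : ℂ) ^ (s i) := by
  rw [ev, eval_monomial, Finsupp.prod_fintype _ _ fun i => pow_zero _]

/-- the law of independent standard normal variables -/
noncomputable def gLaw (ι : Type*) [Fintype ι] : Measure (ι → ℝ) :=
  Measure.pi fun _ => gaussianReal 0 1

instance : IsProbabilityMeasure (gLaw ι) := by unfold gLaw; infer_instance

lemma integrable_ev (p : MvPolynomial ι ℂ) : Integrable (fun x => ev x p) (gLaw ι) := by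
  induction p using MvPolynomial.induction_on' with
  | monomial s a =>
    simp only [ev_monomial]
    exact (Integrable.fintype_prod fun i => integrable_pow_complex (s i)).const_mul a
  | add p q hp hq =>
    simp only [map_add]
    exact hp.add hq

/-- the expectation of a polynomial -/
noncomputable def gE : MvPolynomial ι ℂ →ₗ[ℂ] ℂ where
  toFun p := ∫ x, ev x p ∂gLaw ι
  map_add' p q := by
    simp only [map_add]
    exact integral_add (integrable_ev p) (integrable_ev q)
  map_smul' a p := by
    simp only [smul_eq_C_mul, map_mul, RingHom.id_apply, smul_eq_mul]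
    rw [← integral_const_mul]
    simp [ev]

lemma gE_apply (p : MvPolynomial ι ℂ) : gE p = ∫ x, ev x p ∂gLaw ι := rfl

lemma gE_C_mul (a : ℂ) (p : MvPolynomial ι ℂ) : gE (C a * p) = a * gE p := by
  rw [← smul_eq_C_mul, map_smul, smul_eq_mul]

lemma gE_C (a : ℂ) : gE (C a : MvPolynomial ι ℂ) = a := by
  simp [gE_apply, ev]

lemma gE_monomial (s : ι →₀ ℕ) (a : ℂ) : gE (monomial s a) = a * ∏ i, nMom (s i) := by
  simp only [gE_apply, ev_monomial]
  rw [integral_const_mul, gLaw, integral_fintype_prod_eq_prod (fun i (t : ℝ) => (t : ℂ) ^ (s i))]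
  rfl

theorem gE_X_mul (i : ι) (p : MvPolynomial ι ℂ) : gE (X i * p) = gE (pderiv i p) := by
  classical
  induction p using MvPolynomial.induction_on' with
  | monomial s a =>
    rw [X, monomial_mul, one_mul, pderiv_monomial, gE_monomial, gE_monomial, mul_assoc]
    congr 1
    rw [← Finset.mul_prod_erase _ _ (Finset.mem_univ i),
      ← Finset.mul_prod_erase _ _ (Finset.mem_univ i), ← mul_assoc]
    refine congrArg₂ (· * ·) ?_ (Finset.prod_congr rfl fun j hj => ?_)
    · simp [add_comm 1 (s i), nMom_succ]
    · simp [Finsupp.single_eq_of_ne, (Finset.mem_erase.1 hj).1]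
  | add p q hp hq => simp [mul_add, hp, hq]

/-- a linear form in two coordinates -/
noncomputable def lin₂ (q q' : ι) (z z' : ℂ) : MvPolynomial ι ℂ := C z * X q + C z' * X q'

/-- the derivation attached to `lin₂` -/
noncomputable def dLin₂ (q q' : ι) (z z' : ℂ) :
    Derivation ℂ (MvPolynomial ι ℂ) (MvPolynomial ι ℂ) := z • pderiv q + z' • pderiv q'

theorem gE_lin₂_mul (q q' : ι) (z z' : ℂ) (p : MvPolynomial ι ℂ) :
    gE (lin₂ q q' z z' * p) = gE (dLin₂ q q' z z' p) := by
  simp only [lin₂, dLin₂, add_mul, mul_assoc, map_add, gE_C_mul, gE_X_mul,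
    Derivation.add_apply, Derivation.smul_apply, map_smul, smul_eq_mul]

omit [Fintype ι] in
lemma dLin₂_lin₂ [DecidableEq ι] (q q' r r' : ι) (z z' w w' : ℂ) :
    dLin₂ q q' z z' (lin₂ r r' w w') = C ((if q = r then z * w else 0)
      + (if q' = r then z' * w else 0) + (if q = r' then z * w' else 0)
      + (if q' = r' then z' * w' else 0)) := by
  simp only [lin₂, dLin₂, map_add, Derivation.add_apply, Derivation.smul_apply, pderiv_C_mul,
    pderiv_X, Pi.single_apply]
  simp only [apply_ite (C : ℂ → MvPolynomial ι ℂ), map_zero, C_mul, smul_eq_C_mul,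
    mul_ite, mul_one, mul_zero, @eq_comm _ q r, @eq_comm _ q' r, @eq_comm _ q r',
    @eq_comm _ q' r']
  ring

end Vale.Agent.P087.Moment
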