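import Vale.Agent.P087.Pins

/-!
# Sums over the splittings of a word and the Leibniz rule (P087, Block 6)
-/

open Matrix

namespace Vale.Agent.P087.Moment

variable {P M : Type*} [AddCommMonoid M]

/-- Sum over the positions of `w` of `F left letter right`. -/
def splitG (w : List P) (F : List P → P → List P → M) : M :=
  ∑ l : Fin w.length, F (w.take l) (w.get l) (w.drop (l + 1))

lemma splitG_eq_splitSum (w : List P) (F : List P → P → List P → ℂ) :
    splitG w F = splitSum w F := rfl

lemma splitG_nil (F : List P → P → List P → M) : splitG [] F = 0 := by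
  simp [splitG]

lemma splitG_cons (a : P) (w : List P) (F : List P → P → List P → M) :
    splitG (a :: w) F = F [] a w + splitG w fun p x s => F (a :: p) x s := by
  simp [splitG, Fin.sum_univ_succ]

lemma splitG_congr (w : List P) {F F' : List P → P → List P → M}
    (h : ∀ p x s, w = p ++ x :: s → F p x s = F' p x s) : splitG w F = splitG w F' := by
  refine Finset.sum_congr rfl fun i _ => h _ _ _ ?_
  conv_lhs => rw [← List.take_append_drop i w, List.drop_eq_getElem_cons i.2]
  rfl

lemma map_splitG {N : Type*} [AddCommMonoid N] {Φ : Type*} [FunLike Φ M N]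
    [AddMonoidHomClass Φ M N] (f : Φ) (w : List P) (F : List P → P → List P → M) :
    f (splitG w F) = splitG w fun p x s => f (F p x s) := by
  simp [splitG]

lemma sum_splitG {α : Type*} (S : Finset α) (w : List P) (F : α → List P → P → List P → M) :
    ∑ a ∈ S, splitG w (F a) = splitG w fun p x s => ∑ a ∈ S, F a p x s := Finset.sum_comm

lemma mul_splitG {R : Type*} [NonUnitalNonAssocSemiring R] (c : R) (w : List P)
    (F : List P → P → List P → R) : c * splitG w F = splitG w fun p x s => c * F p x s := by
  simp [splitG, Finset.mul_sum]

lemma splitG_mul {R : Type*} [NonUnitalNonAssocSemiring R] (c : R) (w : List P)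
    (F : List P → P → List P → R) : splitG w F * c = splitG w fun p x s => F p x s * c := by
  simp [splitG, Finset.sum_mul]

lemma trace_splitG {α R : Type*} [Fintype α] [AddCommMonoid R] (w : List P)
    (F : List P → P → List P → Matrix α α R) :
    (splitG w F).trace = splitG w fun p x s => (F p x s).trace := Matrix.trace_sum _ _

lemma splitG_apply {α β R : Type*} [AddCommMonoid R] (w : List P)
    (F : List P → P → List P → Matrix α β R) (a : α) (b : β) :
    splitG w F a b = splitG w fun p x s => F p x s a b := Matrix.sum_apply _ _ _ _

/-- Leibniz rule for the product of a word -/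
theorem leibniz_prod {A : Type*} [Semiring A] (δ : A → A) (h1 : δ 1 = 0)
    (hmul : ∀ a b, δ (a * b) = δ a * b + a * δ b) (f : P → A) (w : List P) :
    δ (w.map f).prod = splitG w fun p x s => (p.map f).prod * δ (f x) * (s.map f).prod := by
  induction w with
  | nil => simp [splitG_nil, h1]
  | cons a w ih =>
    rw [splitG_cons, List.map_cons, List.prod_cons, hmul, ih, mul_splitG]
    congr 1
    · simp
    · exact splitG_congr _ fun p x s _ => by simp [mul_assoc]

section derivation

variable {R : Type*} [CommRing R] [Algebra ℂ R] (D : Derivation ℂ R R)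

lemma map_deriv_mul {α β γ : Type*} [Fintype β] (A : Matrix α β R) (B : Matrix β γ R) :
    (A * B).map D = A.map D * B + A * B.map D := by
  ext i j
  simp [Matrix.mul_apply, map_sum, ← Finset.sum_add_distrib, add_comm, mul_comm]

lemma map_deriv_one {α : Type*} [DecidableEq α] : (1 : Matrix α α R).map D = 0 := by
  ext i j
  by_cases h : i = j <;> simp [h]

lemma map_deriv_prod {α : Type*} [Fintype α] [DecidableEq α] (f : P → Matrix α α R) (w : List P) :
    (w.map f).prod.map D
      = splitG w fun p x s => (p.map f).prod * (f x).map D * (s.map f).prod :=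
  leibniz_prod (fun A : Matrix α α R => A.map D) (map_deriv_one D) (map_deriv_mul D) f w

lemma deriv_prod (f : P → R) (w : List P) :
    D (w.map f).prod = splitG w fun p x s => (p.map f).prod * D (f x) * (s.map f).prod :=
  leibniz_prod D D.map_one_eq_zero
    (fun a b => by rw [D.leibniz, smul_eq_mul, smul_eq_mul]; ring) f w

end derivation

section trace

variable {R : Type*} [CommRing R] {α β : Type*} [Fintype α] [Fintype β]

lemma sum_mul_single_mul [DecidableEq α] [DecidableEq β] (A : Matrix α α R) (z : R)
    (B : Matrix β β R) :
    ∑ a, ∑ b, (A * (Matrix.single a b z : Matrix α β R) * B) a b = z * (A.trace * B.trace) := by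
  have e : ∀ a b, (A * (Matrix.single a b z : Matrix α β R) * B) a b = z * (A a a * B b b) := by
    intro a b
    rw [Matrix.mul_assoc, Matrix.mul_apply, Finset.sum_eq_single a,
      Matrix.single_mul_apply_same]
    · ring
    · intro c _ hc
      rw [Matrix.single_mul_apply_of_ne _ _ _ _ _ hc, mul_zero]
    · simp
  simp only [e, Matrix.trace, Matrix.diag, Finset.sum_mul, Finset.mul_sum]
  try rw [Finset.sum_comm]

lemma trace_mul_eq_sum (A : Matrix α β R) (B : Matrix β α R) :
    (A * B).trace = ∑ a, ∑ b, A a b * B b a := by
  simp [Matrix.trace, Matrix.mul_apply]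

lemma sum_mul_trace_single [DecidableEq α] [DecidableEq β] (F : Matrix α β R)
    (G : Matrix β α R) (z : R) :
    ∑ a, ∑ b, F a b * (Matrix.single a b z * G).trace = z * (F * G).trace := by
  simp only [Matrix.trace_single_mul, smul_eq_mul]
  simp only [trace_mul_eq_sum, Finset.mul_sum]
  exact Finset.sum_congr rfl fun a _ => Finset.sum_congr rfl fun b _ => by ring

end trace

end Vale.Agent.P087.Moment
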