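import Vale.Agent.P087.Moment.Gauss
import Vale.Agent.P087.Moment.Split

/-!
# The matrix model over the polynomial ring and the exact loop equations (P087, Block 6)
-/

open Matrix MvPolynomial

namespace Vale.Agent.P087.Moment

variable {Q : Type*} [Fintype Q] {n l : ℕ}


/-- the polynomial ring of the coordinates -/
abbrev Rg (Q : Type*) [Fintype Q] (n l : ℕ) := MvPolynomial (Coord Q n l) ℂ

/-- rectangular matrices -/
abbrev Mx (Q : Type*) [Fintype Q] (n l : ℕ) := Matrix (Fin (msize Q l)) (Q × Fin l) (Rg Q n l)

/-- rectangular matrices -/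
abbrev Ax (Q : Type*) [Fintype Q] (n l : ℕ) := Matrix (Q × Fin l) (Fin (msize Q l)) (Rg Q n l)

/-- letters: marks and semicircular indices -/
abbrev Lt (Q : Type*) (n : ℕ) := Q ⊕ Fin n

/-- `1 / k` -/
noncomputable def ki (Q : Type*) [Fintype Q] (l : ℕ) : ℂ := ((msize Q l : ℕ) : ℂ)⁻¹

/-- `1 / √(2k)` -/
noncomputable def hs (Q : Type*) [Fintype Q] (l : ℕ) : ℂ := (Real.sqrt (2 * msize Q l) : ℂ)⁻¹

lemma hs_sq : hs Q l * hs Q l + hs Q l * hs Q l = ki Q l := by
  rw [hs, ki, ← mul_inv, ← Complex.ofReal_mul, Real.mul_self_sqrt (by positivity)]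
  push_cast
  rw [mul_inv]
  ring

/-- derivation dual to the entry `(b, a)` of `Cᴴ` -/
noncomputable def dC (a : Q × Fin l) (b : Fin (msize Q l)) : Derivation ℂ (Rg Q n l) (Rg Q n l) :=
  dLin₂ (Sum.inl (a, b, false)) (Sum.inl (a, b, true)) (hs Q l) (-Complex.I * hs Q l)

/-- the rectangular Gaussian matrix -/
noncomputable def polC : Matrix (Q × Fin l) (Fin (msize Q l)) (Rg Q n l) :=
  Matrix.of fun a b => lin₂ (Sum.inl (a, b, false)) (Sum.inl (a, b, true))
    (hs Q l) (Complex.I * hs Q l)

/-- its adjoint -/
noncomputable def polC' : Matrix (Fin (msize Q l)) (Q × Fin l) (Rg Q n l) :=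
  Matrix.of fun b a => lin₂ (Sum.inl (a, b, false)) (Sum.inl (a, b, true))
    (hs Q l) (-Complex.I * hs Q l)

/-- coefficient of the coordinate `(a, b)` in the entry `(a, b)` of the GUE matrix -/
noncomputable def sU (a b : Fin (msize Q l)) : ℂ :=
  if a = b then (Real.sqrt (msize Q l) : ℂ)⁻¹ else
    if a < b then hs Q l else -Complex.I * hs Q l

/-- coefficient of the coordinate `(b, a)` in the entry `(a, b)` of the GUE matrix -/
noncomputable def sV (a b : Fin (msize Q l)) : ℂ :=
  if a = b then 0 else if a < b then Complex.I * hs Q l else hs Q l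

/-- the GUE matrices -/
noncomputable def polS (j : Fin n) :
    Matrix (Fin (msize Q l)) (Fin (msize Q l)) (Rg Q n l) :=
  Matrix.of fun a b => lin₂ (Sum.inr (j, a, b)) (Sum.inr (j, b, a)) (sU a b) (sV a b)

/-- derivation dual to the entry `(a, b)` of `S j` -/
noncomputable def dS (j : Fin n) (a b : Fin (msize Q l)) :
    Derivation ℂ (Rg Q n l) (Rg Q n l) :=
  dLin₂ (Sum.inr (j, a, b)) (Sum.inr (j, b, a)) (sU a b) (sV a b)

lemma dC_polC [DecidableEq Q] (a : Q × Fin l) (b : Fin (msize Q l)) :
    (polC (n := n)).map (dC a b) = Matrix.single a b (C (ki Q l)) := by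
  ext1 c d
  rw [Matrix.map_apply, polC, Matrix.of_apply, dC, dLin₂_lin₂]
  by_cases h : a = c <;> by_cases h' : b = d
  · subst h h'
    rw [Matrix.single_apply_same]
    congr 1
    simp [← hs_sq (Q := Q) (l := l)]
    linear_combination (-(hs Q l * hs Q l)) * Complex.I_mul_I
  all_goals simp [h, h']

lemma dC_polC' [DecidableEq Q] (a : Q × Fin l) (b : Fin (msize Q l)) :
    (polC' (n := n)).map (dC a b) = 0 := by
  ext1 d c
  rw [Matrix.map_apply, polC', Matrix.of_apply, dC, dLin₂_lin₂]
  by_cases h : a = c <;> by_cases h' : b = d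
  · subst h h'
    rw [Matrix.zero_apply, ← map_zero (C : ℂ →+* Rg Q n l)]
    congr 1
    simp
    linear_combination (hs Q l * hs Q l) * Complex.I_mul_I
  all_goals simp [h, h']

lemma dC_polS [DecidableEq Q] (a : Q × Fin l) (b : Fin (msize Q l)) (j : Fin n) :
    (polS j).map (dC a b) = 0 := by
  ext1 c d
  rw [Matrix.map_apply, polS, Matrix.of_apply, dC, dLin₂_lin₂]
  simp

lemma dS_polC [DecidableEq Q] (j : Fin n) (a b : Fin (msize Q l)) :
    (polC (n := n) (l := l) (Q := Q)).map (dS j a b) = 0 := by
  ext1 c d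
  rw [Matrix.map_apply, polC, Matrix.of_apply, dS, dLin₂_lin₂]
  simp

lemma dS_polC' [DecidableEq Q] (j : Fin n) (a b : Fin (msize Q l)) :
    (polC' (n := n) (l := l) (Q := Q)).map (dS j a b) = 0 := by
  ext1 c d
  rw [Matrix.map_apply, polC', Matrix.of_apply, dS, dLin₂_lin₂]
  simp

lemma sUV_dot (a b c d : Fin (msize Q l)) :
    ((if a = c ∧ b = d then sU a b * sU c d else 0)
      + (if b = c ∧ a = d then sV a b * sU c d else 0)
      + (if a = d ∧ b = c then sU a b * sV c d else 0)
      + (if b = d ∧ a = c then sV a b * sV c d else 0))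
      = if b = c ∧ a = d then ki Q l else 0 := by
  have hk : ki Q l = (Real.sqrt (msize Q l) : ℂ)⁻¹ * (Real.sqrt (msize Q l) : ℂ)⁻¹ := by
    rw [ki, ← mul_inv, ← Complex.ofReal_mul, Real.mul_self_sqrt (by positivity)]
    simp
  by_cases h1 : a = c ∧ b = d
  · obtain ⟨rfl, rfl⟩ := h1
    rcases lt_trichotomy a b with h | h | h
    · simp [sU, sV, h, h.ne, h.ne']
      linear_combination (hs Q l * hs Q l) * Complex.I_mul_I
    · subst h; simp [sU, sV, hk]
    · simp [sU, sV, h.ne, h.ne', h.not_gt]
      linear_combination (hs Q l * hs Q l) * Complex.I_mul_I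
  · by_cases h2 : b = c ∧ a = d
    · obtain ⟨rfl, rfl⟩ := h2
      have hne : a ≠ b := fun h => h1 ⟨h, h.symm⟩
      rcases lt_or_gt_of_ne hne with h | h <;>
        simp [sU, sV, h, h.ne, h.ne', h.not_gt, ← hs_sq] <;>
        linear_combination (-(hs Q l * hs Q l)) * Complex.I_mul_I
    · simp [h1, h2, and_comm]
      exact fun e e' => absurd ⟨e', e⟩ h2

lemma dS_polS (j j' : Fin n) (a b : Fin (msize Q l)) :
    (polS (Q := Q) j').map (dS j a b)
      = if j = j' then Matrix.single b a (C (ki Q l)) else 0 := by
  classical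
  ext1 c d
  rw [Matrix.map_apply, polS, Matrix.of_apply, dS, dLin₂_lin₂]
  by_cases hj : j = j'
  · subst hj
    have := sUV_dot a b c d
    simp only [Sum.inr.injEq, Prod.mk.injEq, true_and, if_true, Matrix.single_apply]
    rw [this]
    split_ifs <;> simp
  · simp [hj]

/-- the mark matrices -/
noncomputable def polP [Group Q] (g : Q) : Matrix (Q × Fin l) (Q × Fin l) (Rg Q n l) :=
  (markMat g).map C

variable [Group Q]

lemma map_polP (D : Derivation ℂ (Rg Q n l) (Rg Q n l)) (g : Q) :
    (polP g : Matrix (Q × Fin l) (Q × Fin l) (Rg Q n l)).map D = 0 := by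
  ext1 a b
  simp [polP, MvPolynomial.derivation_C]

lemma markMat_mul (g h : Q) :
    (markMat g : Matrix (Q × Fin l) (Q × Fin l) ℂ) * markMat h = markMat (g * h) := by
  classical
  ext a b
  rw [Matrix.mul_apply, Finset.sum_eq_single (h * b.1, b.2)]
  · by_cases h1 : a.1 = g * (h * b.1) <;> by_cases h2 : a.2 = b.2 <;>
      simp [markMat, h1, h2, mul_assoc]
  · intro c _ hc
    by_cases h1 : c.1 = h * b.1 ∧ c.2 = b.2
    · exact absurd (show c = (h * b.1, b.2) from Prod.ext h1.1 h1.2) hc
    · simp [markMat, h1]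
  · simp

lemma trace_markMat [DecidableEq Q] (g : Q) :
    (markMat g : Matrix (Q × Fin l) (Q × Fin l) ℂ).trace
      = if g = 1 then ((Fintype.card Q * l : ℕ) : ℂ) else 0 := by
  simp only [Matrix.trace, Matrix.diag, markMat, Matrix.of_apply]
  split_ifs with h <;> simp [h]

lemma polP_mul (g h : Q) :
    (polP g : Matrix (Q × Fin l) (Q × Fin l) (Rg Q n l)) * polP h = polP (g * h) := by
  rw [polP, polP, polP, ← Matrix.map_mul, markMat_mul]

lemma trace_polP [DecidableEq Q] (g : Q) :
    (polP g : Matrix (Q × Fin l) (Q × Fin l) (Rg Q n l)).trace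
      = C (if g = 1 then ((Fintype.card Q * l : ℕ) : ℂ) else 0) := by
  rw [← trace_markMat (l := l) g]
  simp [polP, Matrix.trace]

/-- the left half of the matrix of a mark -/
noncomputable def polCP (h : Q) : Matrix (Fin (msize Q l)) (Q × Fin l) (Rg Q n l) :=
  (polC' : Matrix (Fin (msize Q l)) (Q × Fin l) (Rg Q n l))
    * (polP h : Matrix (Q × Fin l) (Q × Fin l) (Rg Q n l))

/-- the matrix of a mark -/
noncomputable def polA (h : Q) : Matrix (Fin (msize Q l)) (Fin (msize Q l)) (Rg Q n l) :=
  (polCP h : Matrix (Fin (msize Q l)) (Q × Fin l) (Rg Q n l))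
    * (polC : Matrix (Q × Fin l) (Fin (msize Q l)) (Rg Q n l))

/-- the matrix of a letter -/
noncomputable def polL : Lt Q n → Matrix (Fin (msize Q l)) (Fin (msize Q l)) (Rg Q n l) :=
  Sum.elim polA polS

/-- the matrix of a word -/
noncomputable def polW (w : List (Lt Q n)) :
    Matrix (Fin (msize Q l)) (Fin (msize Q l)) (Rg Q n l) :=
  (w.map polL).prod

/-- the normalised trace of a word -/
noncomputable def pT (w : List (Lt Q n)) : Rg Q n l := C (ki Q l) * (polW w).trace

/-- the product of the normalised traces -/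
noncomputable def pP (W : List (List (Lt Q n))) : Rg Q n l := (W.map pT).prod

/-- the expectation of a product of traces -/
noncomputable def mMom (l : ℕ) (W : List (List (Lt Q n))) : ℂ := gE (pP (l := l) W)

/-- a function of the mark of a group letter, zero on semicircular letters -/
def caseC {M : Type*} [Zero M] (x : Lt Q n) (F : Q → M) : M := Sum.elim F (fun _ => 0) x

lemma polW_append (u v : List (Lt Q n)) :
    polW (l := l) (u ++ v) = polW u * polW v := by simp [polW]

lemma polW_inl (h : Q) : polW (l := l) (n := n) [Sum.inl h]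
    = (polCP h : Matrix (Fin (msize Q l)) (Q × Fin l) (Rg Q n l))
      * (polC : Matrix (Q × Fin l) (Fin (msize Q l)) (Rg Q n l)) := by
  simp [polW, polL, polA]

lemma polW_inr (j : Fin n) : polW (l := l) (Q := Q) [Sum.inr j] = polS j := by
  simp [polW, polL]

lemma pP_cons (w : List (Lt Q n)) (W : List (List (Lt Q n))) :
    pP (l := l) (w :: W) = pT w * pP W := by simp [pP]

lemma pP_append (W W' : List (List (Lt Q n))) :
    pP (l := l) (W ++ W') = pP W * pP W' := by simp [pP]

lemma dC_polL [DecidableEq Q] (a : Q × Fin l) (b : Fin (msize Q l)) (x : Lt Q n) :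
    (polL x).map (dC a b) = caseC x fun h => (polCP h : Mx Q n l)
      * (Matrix.single a b (C (ki Q l)) : Ax Q n l) := by
  cases x with
  | inl h =>
    simp only [polL, polA, polCP, caseC, Sum.elim_inl, map_deriv_mul, dC_polC, dC_polC', map_polP,
      Matrix.zero_mul, Matrix.mul_zero, add_zero, zero_add]
  | inr j => simp [polL, caseC, dC_polS]

lemma dS_polL [DecidableEq Q] (j : Fin n) (a b : Fin (msize Q l)) (x : Lt Q n) :
    (polL x).map (dS j a b) = if x = Sum.inr j then Matrix.single b a (C (ki Q l)) else 0 := by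
  cases x with
  | inl h =>
    simp only [polL, polA, polCP, Sum.elim_inl, map_deriv_mul, dS_polC, dS_polC', map_polP, Matrix.zero_mul,
      Matrix.mul_zero, add_zero, reduceCtorEq, if_false]
  | inr j' => simp [polL, dS_polS, eq_comm]

lemma map_polW (D : Derivation ℂ (Rg Q n l) (Rg Q n l)) (w : List (Lt Q n)) :
    (polW w).map D = splitG w fun p x s => polW p * (polL x).map D * polW s :=
  map_deriv_prod D polL w

lemma deriv_pT (D : Derivation ℂ (Rg Q n l) (Rg Q n l)) (w : List (Lt Q n)) :
    D (pT w) = C (ki Q l) * splitG w fun p x s => (polW p * (polL x).map D * polW s).trace := by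
  rw [pT, MvPolynomial.C_mul', Derivation.map_smul, ← MvPolynomial.C_mul']
  congr 1
  rw [show D (polW w).trace = ((polW w).map D).trace by simp [Matrix.trace, map_sum],
    polW, map_deriv_prod, trace_splitG]
  rfl

lemma deriv_pP (D : Derivation ℂ (Rg Q n l) (Rg Q n l)) (W : List (List (Lt Q n))) :
    D (pP W) = splitG W fun p w s => pP (p ++ s) * D (pT w) := by
  rw [pP, deriv_prod]
  exact splitG_congr _ fun p w s _ => by rw [pP_append, pP, pP]; ring

omit [Group Q] in
lemma gE_trace_mul {α β : Type*} [Fintype α] [Fintype β] (G : Matrix β α (Rg Q n l))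
    (D : α → β → Derivation ℂ (Rg Q n l) (Rg Q n l))
    (hG : ∀ a b f, gE (G b a * f) = gE (D a b f)) (F : Matrix α β (Rg Q n l)) (O : Rg Q n l) :
    gE ((F * G).trace * O)
      = gE ((∑ a, ∑ b, F.map (D a b) a b) * O + ∑ a, ∑ b, F a b * D a b O) := by
  simp only [trace_mul_eq_sum, Finset.sum_mul, map_sum, map_add, ← Finset.sum_add_distrib]
  refine Finset.sum_congr rfl fun a _ => Finset.sum_congr rfl fun b _ => ?_
  rw [mul_comm (F a b), mul_assoc, hG, Derivation.leibniz, ← map_add]
  simp [mul_comm, add_comm]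

/-- a mark followed by `C` -/
noncomputable def polPC (g : Q) : Matrix (Q × Fin l) (Fin (msize Q l)) (Rg Q n l) :=
  (polP g : Matrix (Q × Fin l) (Q × Fin l) (Rg Q n l))
    * (polC : Matrix (Q × Fin l) (Fin (msize Q l)) (Rg Q n l))

lemma trace_PC_cyc (g h : Q) (v : List (Lt Q n)) :
    ((polPC g : Ax Q n l) * (polW (l := l) v * (polCP h : Mx Q n l))).trace
      = (polW (l := l) (v ++ [Sum.inl (h * g)])).trace := by
  rw [Matrix.trace_mul_comm, polW_append, polW_inl, polPC, polCP, polCP, ← polP_mul]
  simp only [Matrix.mul_assoc]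

lemma pT_concat_inl (u : List (Lt Q n)) (g : Q) :
    pT (l := l) (u ++ [Sum.inl g]) = C (ki Q l) *
      ((polPC g : Ax Q n l) * polW (l := l) u * (polC' : Mx Q n l)).trace := by
  rw [pT, polW_append, polW_inl, polCP, polPC]
  congr 1
  rw [Matrix.trace_mul_comm (polW u), Matrix.mul_assoc (polC' * polP g), Matrix.mul_assoc,
    Matrix.trace_mul_comm]
  simp only [Matrix.mul_assoc]

lemma dC_polPC [DecidableEq Q] (g : Q) (a : Q × Fin l) (b : Fin (msize Q l)) :
    ((polPC g : Ax Q n l)).map (dC (n := n) a b)
      = (polP g : Matrix (Q × Fin l) (Q × Fin l) (Rg Q n l))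
        * (Matrix.single a b (C (ki Q l)) : Ax Q n l) := by
  rw [polPC, map_deriv_mul, map_polP, dC_polC, Matrix.zero_mul, zero_add]

lemma contract_same_inl [DecidableEq Q] (g : Q) (u : List (Lt Q n)) :
    (∑ a, ∑ b, ((polPC g : Ax Q n l) * polW (l := l) u).map (dC a b) a b)
      = C (ki Q l) * ((polP g : Matrix (Q × Fin l) (Q × Fin l) (Rg Q n l)).trace
            * (polW (l := l) u).trace
          + splitG u fun p x s => caseC x fun h =>
              (polW (l := l) (p ++ [Sum.inl (h * g)])).trace * (polW (l := l) s).trace) := by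
  have e : ∀ (a : Q × Fin l) (b : Fin (msize Q l)),
      ((polPC g : Ax Q n l) * polW (l := l) u).map (dC a b) a b
      = ((polP g : Matrix (Q × Fin l) (Q × Fin l) (Rg Q n l))
          * (Matrix.single a b (C (ki Q l)) : Ax Q n l)
          * polW (l := l) u) a b
        + splitG u fun p x s => caseC x fun h =>
            (((polPC g : Ax Q n l) * (polW (l := l) p * (polCP h : Mx Q n l)))
              * (Matrix.single a b (C (ki Q l)) : Ax Q n l)
              * polW (l := l) s) a b := by
    intro a b
    rw [map_deriv_mul, Matrix.add_apply, dC_polPC, map_polW]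
    refine congrArg₂ (· + ·) rfl ?_
    simp only [splitG, Matrix.mul_sum, Matrix.sum_apply]
    refine Finset.sum_congr rfl fun i _ => ?_
    rw [dC_polL]
    rcases u.get i with h | j
    · simp only [caseC, Sum.elim_inl, Matrix.mul_assoc]
    · simp [caseC]
  simp only [e, Finset.sum_add_distrib, sum_splitG, sum_mul_single_mul, mul_add, mul_splitG]
  refine congrArg₂ (· + ·) rfl (splitG_congr _ fun p x s _ => ?_)
  cases x with
  | inl h => simp only [caseC, Sum.elim_inl, sum_mul_single_mul, trace_PC_cyc]
  | inr j => simp [caseC]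

lemma contract_cross_inl [DecidableEq Q] (g : Q) (u : List (Lt Q n))
    (W : List (List (Lt Q n))) :
    (∑ a, ∑ b, ((polPC g : Ax Q n l) * polW (l := l) u) a b * dC a b (pP W))
      = C (ki Q l) * C (ki Q l) * splitG W fun P w S => splitG w fun p x s => caseC x fun h =>
          pP (P ++ S) * (polW (l := l) (u ++ s ++ p ++ [Sum.inl (h * g)])).trace := by
  simp only [deriv_pP, deriv_pT, mul_splitG, sum_splitG]
  refine splitG_congr _ fun P w S _ => splitG_congr _ fun p x s _ => ?_
  cases x with
  | inl h =>
    simp only [dC_polL, caseC, Sum.elim_inl]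
    have e : ∀ (a : Q × Fin l) (b : Fin (msize Q l)),
        (polW (l := l) p * ((polCP h : Mx Q n l)
          * (Matrix.single a b (C (ki Q l)) : Ax Q n l))
            * polW (l := l) s).trace
          = ((Matrix.single a b (C (ki Q l)) : Ax Q n l)
              * (polW (l := l) s * polW (l := l) p * (polCP h : Mx Q n l))).trace := fun a b => by
      rw [← Matrix.mul_assoc (polW p), Matrix.mul_assoc, Matrix.trace_mul_comm,
        Matrix.mul_assoc, Matrix.mul_assoc]
    simp only [e]
    have := sum_mul_trace_single ((polPC g : Ax Q n l) * polW (l := l) u)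
      (polW (l := l) s * polW (l := l) p * (polCP h : Mx Q n l)) (C (ki Q l))
    rw [show (polPC g : Ax Q n l) * polW (l := l) u
          * (polW (l := l) s * polW (l := l) p * (polCP h : Mx Q n l))
        = (polPC g : Ax Q n l) * (polW (l := l) (u ++ s ++ p) * (polCP h : Mx Q n l)) by
      simp only [polW_append, Matrix.mul_assoc], trace_PC_cyc] at this
    calc _ = C (ki Q l) * pP (P ++ S) * ∑ a, ∑ b, ((polPC g : Ax Q n l) * polW (l := l) u) a b *
          ((Matrix.single a b (C (ki Q l)) : Ax Q n l) *
            (polW (l := l) s * polW (l := l) p * (polCP h : Mx Q n l))).trace := by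
          simp only [Finset.mul_sum]
          exact Finset.sum_congr rfl fun a _ => Finset.sum_congr rfl fun b _ => by ring
      _ = _ := by rw [this]; ring
  | inr j => simp [dC_polL, caseC]

/-- the loop equation for a mark in the last position -/
theorem mMom_concat_inl [DecidableEq Q] (hl : 0 < l) (u : List (Lt Q n)) (g : Q)
    (W : List (List (Lt Q n))) :
    mMom l ((u ++ [Sum.inl g]) :: W) = (if g = 1 then (1 / 4 : ℂ) else 0) * mMom l (u :: W)
      + splitG u (fun p x s => caseC x fun h => mMom l ((p ++ [Sum.inl (h * g)]) :: s :: W))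
      + ki Q l * ki Q l * splitG W (fun P w S => splitG w fun p x s =>
          caseC x fun h => mMom l ((u ++ s ++ p ++ [Sum.inl (h * g)]) :: (P ++ S))) := by
  set z : Rg Q n l := C (ki Q l) with hz
  have hG : ∀ a b f, gE ((polC' : Mx Q n l) b a * f) = gE (dC (n := n) (Q := Q) (l := l) a b f) :=
    fun a b f => gE_lin₂_mul _ _ _ _ f
  have hq : ki Q l * ki Q l * (if g = 1 then ((Fintype.card Q * l : ℕ) : ℂ) else 0)
      = (if g = 1 then (1 / 4 : ℂ) else 0) * ki Q l := by
    have : (Fintype.card Q : ℂ) ≠ 0 := Nat.cast_ne_zero.2 Fintype.card_ne_zero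
    have : (l : ℂ) ≠ 0 := Nat.cast_ne_zero.2 hl.ne'
    unfold ki msize
    split_ifs
    · push_cast; field_simp
    · simp
  rw [mMom, pP_cons, pT_concat_inl, mul_assoc, gE_C_mul, gE_trace_mul _ _ hG, contract_same_inl,
    contract_cross_inl, ← gE_C_mul, ← hz]
  have h3 : z * ((z * ((polP g : Matrix (Q × Fin l) (Q × Fin l) (Rg Q n l)).trace
        * (polW (l := l) u).trace
      + splitG u fun p x s => caseC x fun h =>
          (polW (l := l) (p ++ [Sum.inl (h * g)])).trace * (polW (l := l) s).trace)) * pP W
      + z * z * splitG W fun P w S => splitG w fun p x s => caseC x fun h =>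
          pP (P ++ S) * (polW (l := l) (u ++ s ++ p ++ [Sum.inl (h * g)])).trace)
      = C (if g = 1 then (1 / 4 : ℂ) else 0) * pP (u :: W)
        + splitG u (fun p x s => caseC x fun h => pP ((p ++ [Sum.inl (h * g)]) :: s :: W))
        + C (ki Q l * ki Q l) * splitG W (fun P w S => splitG w fun p x s => caseC x fun h =>
            pP ((u ++ s ++ p ++ [Sum.inl (h * g)]) :: (P ++ S))) := by
    rw [mul_add z (_ * pP W), mul_add z (_ * _), add_mul, mul_add z]
    refine congrArg₂ (· + ·) (congrArg₂ (· + ·) ?_ ?_) ?_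
    · have hq' := congrArg (C : ℂ → Rg Q n l) hq
      simp only [C_mul, ← hz] at hq'
      rw [pP_cons, pT, trace_polP, ← hz]
      linear_combination ((polW (l := l) u).trace * pP W) * hq'
    · simp only [mul_splitG, splitG_mul]
      refine splitG_congr _ fun p x s _ => ?_
      cases x with
      | inl h => simp only [caseC, Sum.elim_inl, pP_cons, pT, ← hz]; ring
      | inr j => simp [caseC]
    · simp only [mul_splitG, C_mul, ← hz]
      refine splitG_congr _ fun P w S _ => splitG_congr _ fun p x s _ => ?_
      cases x with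
      | inl h => simp only [caseC, Sum.elim_inl, pP_cons, pT, ← hz]; ring
      | inr j => simp [caseC]
  rw [h3]
  simp only [map_add, map_splitG, gE_C_mul, caseC]
  refine congrArg₂ (· + ·) (congrArg₂ (· + ·) rfl (splitG_congr _ fun p x s _ => ?_))
    (congrArg _ (splitG_congr _ fun P w S _ => splitG_congr _ fun p x s _ => ?_)) <;>
  cases x <;> simp [mMom]

/-- the loop equation for a semicircular letter in the last position -/
theorem mMom_concat_inr [DecidableEq Q] (u : List (Lt Q n)) (j : Fin n)
    (W : List (List (Lt Q n))) :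
    mMom l ((u ++ [Sum.inr j]) :: W)
      = splitG u (fun p x s => if x = Sum.inr j then mMom l (p :: s :: W) else 0)
      + ki Q l * ki Q l * splitG W (fun P w S => splitG w fun p x s =>
          if x = Sum.inr j then mMom l ((u ++ s ++ p) :: (P ++ S)) else 0) := by
  set z : Rg Q n l := C (ki Q l) with hz
  have h1 : pT (l := l) (u ++ [Sum.inr j]) = z * (polW (l := l) u * polS j).trace := by
    rw [pT, polW_append, polW_inr]
  have hG : ∀ a b f, gE (polS (Q := Q) (l := l) j b a * f) = gE (dS (n := n) j b a f) :=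
    fun a b f => gE_lin₂_mul _ _ _ _ f
  have hs1 : (∑ a, ∑ b, (polW (l := l) u).map (dS j b a) a b)
      = z * splitG u fun p x s =>
          if x = Sum.inr j then (polW (l := l) p).trace * (polW (l := l) s).trace else 0 := by
    simp only [map_polW, splitG_apply, sum_splitG, mul_splitG]
    refine splitG_congr _ fun p x s _ => ?_
    by_cases hx : x = Sum.inr j <;> simp only [dS_polL, hx, if_true, if_false, ← hz]
    · exact sum_mul_single_mul _ _ _
    · simp
  have hs2 : (∑ a, ∑ b, (polW (l := l) u) a b * dS j b a (pP W))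
      = z * z * splitG W fun P w S => splitG w fun p x s =>
          if x = Sum.inr j then pP (P ++ S) * (polW (l := l) (u ++ s ++ p)).trace else 0 := by
    simp only [deriv_pP, deriv_pT, mul_splitG, sum_splitG]
    refine splitG_congr _ fun P w S _ => splitG_congr _ fun p x s _ => ?_
    by_cases hx : x = Sum.inr j <;> simp only [dS_polL, hx, if_true, if_false, ← hz]
    · have e : ∀ a b : Fin (msize Q l),
          (polW (l := l) (Q := Q) (n := n) p * Matrix.single a b z * polW (l := l) s).trace
            = (Matrix.single a b z * (polW (l := l) s * polW (l := l) p)).trace := fun a b => by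
        rw [Matrix.mul_assoc, Matrix.trace_mul_comm, Matrix.mul_assoc]
      simp only [e]
      have := sum_mul_trace_single (polW (l := l) u) (polW (l := l) s * polW (l := l) p) z
      rw [show polW (l := l) u * (polW (l := l) s * polW (l := l) p) = polW (l := l) (u ++ s ++ p) by
        simp only [polW_append, Matrix.mul_assoc]] at this
      calc _ = z * pP (P ++ S) * ∑ a, ∑ b, (polW (l := l) u) a b *
            (Matrix.single a b z * (polW (l := l) s * polW (l := l) p)).trace := by
            simp only [Finset.mul_sum]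
            exact Finset.sum_congr rfl fun a _ => Finset.sum_congr rfl fun b _ => by ring
        _ = _ := by rw [this]; ring
    · simp
  rw [mMom, pP_cons, h1, mul_assoc, hz, gE_C_mul, gE_trace_mul _ _ hG, hs1, hs2, ← gE_C_mul, ← hz]
  have h3 : z * ((z * splitG u fun p x s =>
        if x = Sum.inr j then (polW (l := l) p).trace * (polW (l := l) s).trace else 0) * pP W
      + z * z * splitG W fun P w S => splitG w fun p x s =>
          if x = Sum.inr j then pP (P ++ S) * (polW (l := l) (u ++ s ++ p)).trace else 0)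
      = splitG u (fun p x s => if x = Sum.inr j then pP (p :: s :: W) else 0)
        + C (ki Q l * ki Q l) * splitG W (fun P w S => splitG w fun p x s =>
            if x = Sum.inr j then pP ((u ++ s ++ p) :: (P ++ S)) else 0) := by
    rw [mul_add]
    refine congrArg₂ (· + ·) ?_ ?_
    · simp only [mul_splitG, splitG_mul]
      refine splitG_congr _ fun p x s _ => ?_
      split_ifs <;> simp [pP_cons, pT, ← hz] <;> ring
    · simp only [mul_splitG, C_mul, ← hz]
      refine splitG_congr _ fun P w S _ => splitG_congr _ fun p x s _ => ?_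
      split_ifs <;> simp [pP_cons, pT, ← hz] <;> ring
  rw [h3]
  simp only [map_add, map_splitG, gE_C_mul, apply_ite gE, map_zero]
  rfl

end Vale.Agent.P087.Moment
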